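import Vale.Agent.P085.Step.Interfaces
import Vale.Agent.P085.Toolkit.Trace

/-!
# An element of a corner through the imaginary parts of two unitaries

A self-adjoint `A ≈ ∑ c_m E_m` is replaced by `∑ (√(1 - k_m²) + i k_m) E_m` with `k_m` the clip of
`s c_m` to `[-1, 1]`; the imaginary part misses `s A` only where `|s c_m| > 1`.
-/

namespace Vale.Agent.P085

open scoped InnerProductSpace

universe u

variable {H : Type u} [NormedAddCommGroup H] [InnerProductSpace ℂ H] [CompleteSpace H]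
variable {M : VonNeumannAlgebra H} {ξ : ℕ → H}

lemma smul_mem_vna (c : ℂ) {a : H →L[ℂ] H} (ha : a ∈ M) : c • a ∈ M :=
  M.toStarSubalgebra.smul_mem ha c

/-- products of combinations of the cells of a partition -/
lemma IsPartition.comb_mul {ι : Type*} [Fintype ι] {e : H →L[ℂ] H} {E : ι → (H →L[ℂ] H)}
    (h : IsPartition M e E) (a b : ι → ℂ) :
    (∑ i, a i • E i) * ∑ i, b i • E i = ∑ i, (a i * b i) • E i := by
  rw [Finset.sum_mul]
  refine Finset.sum_congr rfl fun i _ => ?_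
  rw [Finset.mul_sum, Finset.sum_eq_single i (fun j _ hj => by
    rw [smul_mul_smul_comm, h.orth i j (Ne.symm hj), smul_zero])
    (fun hn => absurd (Finset.mem_univ i) hn), smul_mul_smul_comm, (h.proj i).mul_self]

lemma IsPartition.star_comb {ι : Type*} [Fintype ι] {e : H →L[ℂ] H} {E : ι → (H →L[ℂ] H)}
    (h : IsPartition M e E) (a : ι → ℂ) :
    star (∑ i, a i • E i) = ∑ i, starRingEnd ℂ (a i) • E i := by
  rw [star_sum]
  exact Finset.sum_congr rfl fun i _ => by rw [star_smul, (h.proj i).star_eq]; rfl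

lemma IsPartition.n2_comb {ι : Type*} [Fintype ι] (T : Setup M ξ) {e : H →L[ℂ] H}
    {E : ι → (H →L[ℂ] H)} (h : IsPartition M e E) (a : ι → ℂ) :
    n2 ξ (∑ i, a i • E i) ^ 2 = ∑ i, ‖a i‖ ^ 2 * trP ξ (E i) := by
  classical
  rw [n2_sq_sum_of_orth T.summable _ _ fun i _ j _ hij => by
    rw [star_smul, (h.proj i).star_eq, smul_mul_smul_comm, h.orth i j hij, smul_zero]
    simp [vecState]]
  exact Finset.sum_congr rfl fun i _ => by rw [n2_smul T.summable, mul_pow, trP]

/-- clipping to `[-1, 1]` -/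
noncomputable def clip1 (t : ℝ) : ℝ := max (-1) (min 1 t)

lemma abs_clip1 (t : ℝ) : |clip1 t| ≤ 1 :=
  abs_le.2 ⟨le_max_left _ _, max_le (by norm_num) (min_le_left _ _)⟩

lemma clip1_sub_sq_le (c : ℝ) {s : ℝ} (hs : 0 < s) : (c - clip1 (s * c) / s) ^ 2 ≤ s ^ 2 * c ^ 4 := by
  rcases le_or_gt |s * c| 1 with h | h
  · obtain ⟨h1, h2⟩ := abs_le.1 h
    have e : clip1 (s * c) = s * c := by rw [clip1, min_eq_right h2, max_eq_right h1]
    rw [e, show s * c / s = c by field_simp, sub_self, zero_pow two_ne_zero]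
    positivity
  · have hc : 1 ≤ (s * c) ^ 2 := by
      rw [← sq_abs]; nlinarith
    have key : |c - clip1 (s * c) / s| ≤ |c| := by
      rcases lt_abs.1 h with h1 | h1
      · have e : clip1 (s * c) = 1 := by rw [clip1, min_eq_left h1.le]; norm_num
        have hc0 : 0 < c := by nlinarith
        have hle : 1 / s ≤ c := by rw [div_le_iff₀ hs]; linarith
        have : 0 < 1 / s := by positivity
        rw [e, abs_of_pos hc0, abs_le]
        constructor <;> linarith
      · have e : clip1 (s * c) = -1 := by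
          rw [clip1, min_eq_right (by linarith), max_eq_left (by linarith)]
        have hc0 : c < 0 := by nlinarith
        have hle : 1 / s ≤ -c := by rw [div_le_iff₀ hs]; linarith
        have : 0 < 1 / s := by positivity
        rw [e, abs_of_neg hc0, neg_div, sub_neg_eq_add, abs_le]
        constructor <;> linarith
    calc (c - clip1 (s * c) / s) ^ 2 ≤ c ^ 2 := sq_le_sq.2 key
      _ = c ^ 2 * 1 := (mul_one _).symm
      _ ≤ c ^ 2 * (s * c) ^ 2 := by gcongr
      _ = s ^ 2 * c ^ 4 := by ring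

/-- one self-adjoint element and the imaginary part of a unitary of its corner -/
lemma exists_clip_sa (T : Setup M ξ) (hSa : SaApproxOut M) {o : H →L[ℂ] H} (ho : IsProj M o)
    {A : H →L[ℂ] H} (hA : A ∈ M) (hsa : IsSelfAdjoint A) (hoA : o * A = A) {s : ℝ} (hs : 0 < s)
    {θ : ℝ} (hθ : 0 < θ) :
    ∃ U, CornerU M o U ∧
      n2 ξ (A - (1 / (2 * Complex.I * (s : ℂ))) • (U - star U)) ^ 2 ≤
        s ^ 2 * n2 ξ (A * A) ^ 2 + θ := by
  set a := n2 ξ (A * A)
  have ha : 0 ≤ a := n2_nonneg _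
  set η := min 1 (θ / (2 * s * a + 1)) with hη
  have hη0 : 0 < η := lt_min one_pos (by positivity)
  set C := 1 + s * (2 * ‖A‖ + 1) with hC
  have hC0 : 0 < C := by positivity
  set θ₀ := min 1 (η / C) with hθ₀
  have hθ₀0 : 0 < θ₀ := lt_min one_pos (by positivity)
  obtain ⟨m, c, E, hE, -, -, hAE⟩ := hSa o ho A hA hsa hoA θ₀ hθ₀0
  set k : Fin m → ℝ := fun i => clip1 (s * c i) with hk
  set w : Fin m → ℂ := fun i => (Real.sqrt (1 - k i ^ 2) : ℂ) + (k i : ℂ) * Complex.I with hw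
  set B := ∑ i, (c i : ℂ) • E i with hB
  set U := ∑ i, w i • E i with hU
  have hww : ∀ i, starRingEnd ℂ (w i) * w i = 1 := fun i => by
    have h1 : 0 ≤ 1 - k i ^ 2 := by
      have h := pow_le_pow_left₀ (abs_nonneg _) (abs_clip1 (s * c i)) 2
      rw [sq_abs, one_pow] at h
      simp only [hk]; linarith
    rw [mul_comm, Complex.mul_conj, hw, Complex.normSq_add_mul_I, Real.sq_sqrt h1]
    simp
  refine ⟨U, ⟨sum_mem fun i _ => smul_mem_vna _ (hE.proj i).1, ?_, ?_, ?_, ?_⟩, ?_⟩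
  · simp only [hU, Finset.mul_sum, mul_smul_comm, hE.mul_cell]
  · simp only [hU, Finset.sum_mul, smul_mul_assoc, hE.cell_mul]
  · rw [hU, hE.star_comb, hE.comb_mul]
    simp only [hww, one_smul, hE.total]
  · rw [hU, hE.star_comb, hE.comb_mul]
    simp only [fun i => (mul_comm _ _).trans (hww i), one_smul, hE.total]
  have hK : (1 / (2 * Complex.I * (s : ℂ))) • (U - star U) = ∑ i, ((k i / s : ℝ) : ℂ) • E i := by
    rw [hU, hE.star_comb, ← Finset.sum_sub_distrib, Finset.smul_sum]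
    refine Finset.sum_congr rfl fun i _ => ?_
    rw [← sub_smul, smul_smul]
    congr 1
    simp only [hw, map_add, map_mul, Complex.conj_ofReal, Complex.conj_I]
    have hs' : (s : ℂ) ≠ 0 := by exact_mod_cast hs.ne'
    push_cast
    field_simp [Complex.I_ne_zero]
    ring
  have hBB : n2 ξ (B - ∑ i, ((k i / s : ℝ) : ℂ) • E i) ≤ s * n2 ξ (B * B) := by
    refine (sq_le_sq₀ (n2_nonneg _) (mul_nonneg hs.le (n2_nonneg _))).1 ?_
    rw [hB, hE.comb_mul, ← Finset.sum_sub_distrib, mul_pow]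
    simp only [← sub_smul]
    rw [hE.n2_comb T, hE.n2_comb T, Finset.mul_sum]
    refine Finset.sum_le_sum fun i _ => ?_
    rw [← mul_assoc]
    refine mul_le_mul_of_nonneg_right ?_ (trP_nonneg _)
    rw [← Complex.ofReal_sub, ← Complex.ofReal_mul, Complex.norm_real, Complex.norm_real,
      Real.norm_eq_abs, Real.norm_eq_abs, sq_abs, sq_abs]
    calc (c i - k i / s) ^ 2 ≤ s ^ 2 * c i ^ 4 := clip1_sub_sq_le _ hs
      _ = s ^ 2 * (c i * c i) ^ 2 := by ring
  have h1 : ‖B‖ ≤ ‖A‖ + θ₀ := by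
    calc ‖B‖ = ‖A - (A - B)‖ := by rw [sub_sub_cancel]
      _ ≤ ‖A‖ + ‖A - B‖ := norm_sub_le _ _
      _ ≤ ‖A‖ + θ₀ := by linarith
  have h2 : n2 ξ (B * B) ≤ a + θ₀ * (2 * ‖A‖ + 1) := by
    have h3 : ‖B * B - A * A‖ ≤ θ₀ * (2 * ‖A‖ + 1) := by
      calc ‖B * B - A * A‖ = ‖(B - A) * B + A * (B - A)‖ := by
            rw [sub_mul, mul_sub]; congr 1; abel
        _ ≤ ‖(B - A) * B‖ + ‖A * (B - A)‖ := norm_add_le _ _
        _ ≤ ‖B - A‖ * ‖B‖ + ‖A‖ * ‖B - A‖ := add_le_add (norm_mul_le _ _) (norm_mul_le _ _)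
        _ ≤ θ₀ * (‖A‖ + θ₀) + ‖A‖ * θ₀ := by rw [norm_sub_rev]; gcongr
        _ ≤ θ₀ * (2 * ‖A‖ + 1) := by nlinarith [min_le_left 1 (η / C)]
    have h4 := n2_sub_le T.summable (B * B) (A * A) 0
    rw [sub_zero, sub_zero] at h4
    linarith [T.n2_le_norm (B * B - A * A)]
  have h3 : n2 ξ (A - (1 / (2 * Complex.I * (s : ℂ))) • (U - star U)) ≤ s * a + η := by
    rw [hK]
    have h4 : θ₀ * C ≤ η := by
      have := min_le_right 1 (η / C)
      rw [le_div_iff₀ hC0] at this
      exact this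
    have h5 := mul_le_mul_of_nonneg_left h2 hs.le
    have h6 := n2_sub_le T.summable A B (∑ i, ((k i / s : ℝ) : ℂ) • E i)
    have h7 : n2 ξ (A - B) ≤ θ₀ := (T.n2_le_norm _).trans hAE
    rw [hC] at h4
    nlinarith
  calc n2 ξ (A - (1 / (2 * Complex.I * (s : ℂ))) • (U - star U)) ^ 2 ≤ (s * a + η) ^ 2 :=
        pow_le_pow_left₀ (n2_nonneg _) h3 2
    _ = s ^ 2 * a ^ 2 + η * (2 * s * a + η) := by ring
    _ ≤ s ^ 2 * a ^ 2 + θ := by
        gcongr
        have h4 := min_le_right 1 (θ / (2 * s * a + 1))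
        rw [le_div_iff₀ (by positivity)] at h4
        have h5 : η * (2 * s * a + η) ≤ η * (2 * s * a + 1) := by
          gcongr; exact min_le_left _ _
        exact h5.trans h4

lemma n2_star_mul_swap (T : Setup M ξ) {G : H →L[ℂ] H} (hG : G ∈ M) :
    n2 ξ (G * star G) = n2 ξ (star G * G) ∧ n2 ξ (G * G) ≤ n2 ξ (star G * G) ∧
      n2 ξ (star G * star G) ≤ n2 ξ (star G * G) := by
  have hG' := star_mem hG
  have h1 : n2 ξ (G * star G) = n2 ξ (star G * G) := by
    refine (sq_eq_sq₀ (n2_nonneg _) (n2_nonneg _)).1 ?_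
    rw [n2_sq_eq T.summable, n2_sq_eq T.summable]
    simp only [star_mul, star_star]
    rw [mul_assoc G, T.trace.comm _ hG _ (mul_mem hG' (mul_mem hG hG'))]
    simp only [mul_assoc]
  have h2 : n2 ξ (G * G) ≤ n2 ξ (star G * G) := by
    refine (sq_le_sq₀ (n2_nonneg _) (n2_nonneg _)).1 ?_
    have h : (vecState ξ (star (G * G) * (G * G))).re =
        (vecState ξ (star (star G * G) * (G * star G))).re := by
      congr 1
      simp only [star_mul, star_star, mul_assoc]
      rw [T.trace.comm _ hG' _ (mul_mem hG' (mul_mem hG hG))]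
      simp only [mul_assoc]
    rw [n2_sq_eq T.summable, h, sq]
    refine ((le_abs_self _).trans (re_vecState_le T.summable _ _)).trans (le_of_eq ?_)
    rw [h1]
  exact ⟨h1, h2, by rw [← star_mul, T.n2_star (mul_mem hG hG)]; exact h2⟩

/-- (E2) -/
theorem clipOut (T : Setup M ξ) (hSa : SaApproxOut M) : ClipOut M ξ := by
  intro o ho G hG hoG hGo s hs θ hθ
  obtain ⟨e1, e2, e3⟩ := n2_star_mul_swap T hG
  have hoG' : o * star G = star G := by
    have h := congrArg star hGo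
    rwa [star_mul, ho.star_eq] at h
  set A := (1 / 2 : ℂ) • (G + star G) with hA
  set B := (-Complex.I / 2) • (G - star G) with hB
  have hAM : A ∈ M := smul_mem_vna _ (add_mem hG (star_mem hG))
  have hBM : B ∈ M := smul_mem_vna _ (sub_mem hG (star_mem hG))
  have hAs : IsSelfAdjoint A := by
    rw [IsSelfAdjoint, hA, star_smul, star_add, star_star, add_comm]; simp
  have hBs : IsSelfAdjoint B := by
    rw [IsSelfAdjoint, hB, star_smul, star_sub, star_star, ← neg_sub G, smul_neg, ← neg_smul]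
    congr 1
    simp [neg_div]
  obtain ⟨U₁, hU₁, h1⟩ := exists_clip_sa T hSa ho hAM hAs
    (by rw [hA, mul_smul_comm, mul_add, hoG, hoG']) hs (by positivity : 0 < θ / 4)
  obtain ⟨U₂, hU₂, h2⟩ := exists_clip_sa T hSa ho hBM hBs
    (by rw [hB, mul_smul_comm, mul_sub, hoG, hoG']) hs (by positivity : 0 < θ / 4)
  refine ⟨U₁, U₂, hU₁, hU₂, ?_⟩
  have hξ := T.summable
  have hAA : n2 ξ (A * A) ≤ n2 ξ (star G * G) := by
    rw [hA, smul_mul_smul_comm, n2_smul hξ, add_mul, mul_add, mul_add,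
      show ‖(1 / 2 : ℂ) * (1 / 2)‖ = 1 / 4 by norm_num]
    nlinarith [n2_add_le hξ (G * G + G * star G) (star G * G + star G * star G),
      n2_add_le hξ (G * G) (G * star G), n2_add_le hξ (star G * G) (star G * star G)]
  have hBB : n2 ξ (B * B) ≤ n2 ξ (star G * G) := by
    rw [hB, smul_mul_smul_comm, n2_smul hξ, sub_mul, mul_sub, mul_sub, sub_eq_add_neg,
      show ‖-Complex.I / 2 * (-Complex.I / 2)‖ = 1 / 4 by norm_num]
    have i1 := n2_add_le hξ (G * G - G * star G) (-(star G * G - star G * star G))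
    have i2 := n2_sub_le hξ (G * G) 0 (G * star G)
    have i3 := n2_sub_le hξ (star G * G) 0 (star G * star G)
    simp only [sub_zero, zero_sub, n2_neg hξ] at i1 i2 i3
    linarith
  set c : ℂ := 1 / (2 * Complex.I * (s : ℂ))
  have hsplit : G - c • ((U₁ - star U₁) + Complex.I • (U₂ - star U₂)) =
      (A - c • (U₁ - star U₁)) + Complex.I • (B - c • (U₂ - star U₂)) := by
    have hGAB : A + Complex.I • B = G := by
      rw [hA, hB, smul_smul, show Complex.I * (-Complex.I / 2) = 1 / 2 by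
        rw [mul_div_assoc', mul_neg, Complex.I_mul_I]; norm_num]
      module
    rw [← hGAB]
    module
  rw [hsplit]
  have i1 := n2_add_le hξ (A - c • (U₁ - star U₁)) (Complex.I • (B - c • (U₂ - star U₂)))
  rw [n2_smul hξ, Complex.norm_I, one_mul] at i1
  calc n2 ξ ((A - c • (U₁ - star U₁)) + Complex.I • (B - c • (U₂ - star U₂))) ^ 2
      ≤ (n2 ξ (A - c • (U₁ - star U₁)) + n2 ξ (B - c • (U₂ - star U₂))) ^ 2 :=
        pow_le_pow_left₀ (n2_nonneg _) i1 2
    _ ≤ 2 * (n2 ξ (A - c • (U₁ - star U₁)) ^ 2 + n2 ξ (B - c • (U₂ - star U₂)) ^ 2) := add_sq_le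
    _ ≤ 2 * ((s ^ 2 * n2 ξ (A * A) ^ 2 + θ / 4) + (s ^ 2 * n2 ξ (B * B) ^ 2 + θ / 4)) := by
        gcongr
    _ ≤ 2 * ((s ^ 2 * n2 ξ (star G * G) ^ 2 + θ / 4) + (s ^ 2 * n2 ξ (star G * G) ^ 2 + θ / 4)) := by
        gcongr <;> exact n2_nonneg _
    _ = 4 * s ^ 2 * n2 ξ (star G * G) ^ 2 + θ := by ring

end Vale.Agent.P085
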