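import Vale.Agent.P085.Step.Interfaces
import Vale.Agent.P085.Encode.Statement
import Vale.Agent.P085.Toolkit.Trace

/-!
# (E1) the encoding inside a corner

The corner `o M o` is a `*`-algebra with unit `o` and tracial state `vecState / trP o`, to which the
abstract encoding applies.
-/

namespace Vale.Agent.P085

open scoped InnerProductSpace

universe u

variable {H : Type u} [NormedAddCommGroup H] [InnerProductSpace ℂ H] [CompleteSpace H]
variable {M : VonNeumannAlgebra H} {ξ : ℕ → H} {o : H →L[ℂ] H}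

/-- the elements of the corner of `o` -/
def Cor (_ho : IsProj M o) : Type u :=
  {a : H →L[ℂ] H // a ∈ M ∧ o * a = a ∧ a * o = a}

namespace Cor

set_option linter.unusedVariables false

variable {ho : IsProj M o}

/-- the underlying operator -/
def val (a : Cor ho) : H →L[ℂ] H := Subtype.val a

lemma val_injective : Function.Injective (val (ho := ho)) := Subtype.val_injective

@[ext] lemma ext {a b : Cor ho} (h : a.val = b.val) : a = b := val_injective h

lemma val_mem (a : Cor ho) : a.val ∈ M := a.2.1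

lemma o_mul (a : Cor ho) : o * a.val = a.val := a.2.2.1

lemma mul_o (a : Cor ho) : a.val * o = a.val := a.2.2.2

lemma smul_mem' {c : ℂ} {a : H →L[ℂ] H} (ha : a ∈ M) : c • a ∈ M :=
  M.toStarSubalgebra.smul_mem ha c

instance : Zero (Cor ho) := ⟨⟨0, zero_mem M, mul_zero _, zero_mul _⟩⟩
instance : One (Cor ho) := ⟨⟨o, ho.1, ho.mul_self, ho.mul_self⟩⟩
instance : Add (Cor ho) :=
  ⟨fun a b => ⟨a.val + b.val, add_mem a.val_mem b.val_mem,
    by rw [mul_add, a.o_mul, b.o_mul], by rw [add_mul, a.mul_o, b.mul_o]⟩⟩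
instance : Neg (Cor ho) :=
  ⟨fun a => ⟨-a.val, neg_mem a.val_mem, by rw [mul_neg, a.o_mul], by rw [neg_mul, a.mul_o]⟩⟩
instance : Sub (Cor ho) :=
  ⟨fun a b => ⟨a.val - b.val, sub_mem a.val_mem b.val_mem,
    by rw [mul_sub, a.o_mul, b.o_mul], by rw [sub_mul, a.mul_o, b.mul_o]⟩⟩
instance : Mul (Cor ho) :=
  ⟨fun a b => ⟨a.val * b.val, mul_mem a.val_mem b.val_mem,
    by rw [← mul_assoc, a.o_mul], by rw [mul_assoc, b.mul_o]⟩⟩
instance : SMul ℂ (Cor ho) :=
  ⟨fun c a => ⟨c • a.val, smul_mem' a.val_mem,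
    by rw [mul_smul_comm, a.o_mul], by rw [smul_mul_assoc, a.mul_o]⟩⟩
noncomputable instance : Star (Cor ho) :=
  ⟨fun a => ⟨star a.val, star_mem a.val_mem,
    (congrArg (· * star a.val) ho.star_eq).symm.trans
      ((star_mul a.val o).symm.trans (congrArg star a.mul_o)),
    (congrArg (star a.val * ·) ho.star_eq).symm.trans
      ((star_mul o a.val).symm.trans (congrArg star a.o_mul))⟩⟩

@[simp] lemma val_zero : (0 : Cor ho).val = 0 := rfl
@[simp] lemma val_one : (1 : Cor ho).val = o := rfl
@[simp] lemma val_add (a b : Cor ho) : (a + b).val = a.val + b.val := rfl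
@[simp] lemma val_neg (a : Cor ho) : (-a).val = -a.val := rfl
@[simp] lemma val_sub (a b : Cor ho) : (a - b).val = a.val - b.val := rfl
@[simp] lemma val_mul (a b : Cor ho) : (a * b).val = a.val * b.val := rfl
@[simp] lemma val_smul (c : ℂ) (a : Cor ho) : (c • a).val = c • a.val := rfl
@[simp] lemma val_star (a : Cor ho) : (star a).val = star a.val := rfl

instance : AddCommGroup (Cor ho) where
  add_assoc a b c := ext (add_assoc _ _ _)
  zero_add a := ext (zero_add _)
  add_zero a := ext (add_zero _)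
  add_comm a b := ext (add_comm _ _)
  neg_add_cancel a := ext (neg_add_cancel _)
  sub_eq_add_neg a b := ext (sub_eq_add_neg _ _)
  nsmul := nsmulRec
  zsmul := zsmulRec

instance : Ring (Cor ho) where
  __ := (inferInstance : AddCommGroup (Cor ho))
  mul_assoc a b c := ext (mul_assoc _ _ _)
  one_mul a := ext a.o_mul
  mul_one a := ext a.mul_o
  zero_mul a := ext (zero_mul _)
  mul_zero a := ext (mul_zero _)
  left_distrib a b c := ext (mul_add _ _ _)
  right_distrib a b c := ext (add_mul _ _ _)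

instance : Module ℂ (Cor ho) where
  one_smul a := ext (one_smul _ _)
  mul_smul c d a := ext (mul_smul _ _ _)
  smul_zero c := ext (smul_zero _)
  smul_add c a b := ext (smul_add _ _ _)
  add_smul c d a := ext (add_smul _ _ _)
  zero_smul a := ext (zero_smul _ _)

instance : Algebra ℂ (Cor ho) :=
  Algebra.ofModule (fun c a b => ext (smul_mul_assoc c a.val b.val))
    (fun c a b => ext (mul_smul_comm c a.val b.val))

noncomputable instance : StarRing (Cor ho) where
  star_involutive a := ext (star_star _)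
  star_mul a b := ext (star_mul _ _)
  star_add a b := ext (star_add _ _)

instance : StarModule ℂ (Cor ho) := ⟨fun c a => ext (star_smul c a.val)⟩

lemma val_sum {ι : Type*} (s : Finset ι) (f : ι → Cor ho) :
    (∑ i ∈ s, f i).val = ∑ i ∈ s, (f i).val :=
  map_sum (AddMonoidHom.mk' val val_add) f s

lemma val_algebraMap (c : ℂ) : (algebraMap ℂ (Cor ho) c).val = c • o := by
  rw [Algebra.algebraMap_eq_smul_one, val_smul, val_one]

/-- the normalised trace of the corner -/
noncomputable def state (T : Setup M ξ) (ho : IsProj M o) (hpos : 0 < trP ξ o) :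
    Encode.TrState (Cor ho) where
  φ :=
    { toFun := fun a => (((trP ξ o)⁻¹ : ℝ) : ℂ) * vecState ξ a.val
      map_add' := fun a b => by rw [val_add, vecState_add T.summable, mul_add]
      map_smul' := fun c a => by
        rw [val_smul, vecState_smul T.summable, RingHom.id_apply, smul_eq_mul, mul_left_comm] }
  comm a b := congrArg ((((trP ξ o)⁻¹ : ℝ) : ℂ) * ·) (T.trace.comm _ a.val_mem _ b.val_mem)
  star_eq a := by
    show (((trP ξ o)⁻¹ : ℝ) : ℂ) * vecState ξ (star a.val) = _
    rw [vecState_star T.summable]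
    simp only [LinearMap.coe_mk, AddHom.coe_mk, map_mul, Complex.conj_ofReal]
  pos a := by
    show 0 ≤ ((((trP ξ o)⁻¹ : ℝ) : ℂ) * vecState ξ (star a.val * a.val)).re
    rw [Complex.re_ofReal_mul, ← n2_sq_eq T.summable]
    exact mul_nonneg (inv_nonneg.2 hpos.le) (sq_nonneg _)
  one := by
    show (((trP ξ o)⁻¹ : ℝ) : ℂ) * vecState ξ o = 1
    rw [vecState_proj T.summable ho.2, ← Complex.ofReal_mul, inv_mul_cancel₀ hpos.ne',
      Complex.ofReal_one]

lemma state_sq (T : Setup M ξ) (hpos : 0 < trP ξ o) (a : Cor ho) :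
    (state T ho hpos).sq a = n2 ξ a.val ^ 2 / trP ξ o := by
  show ((((trP ξ o)⁻¹ : ℝ) : ℂ) * vecState ξ (star a.val * a.val)).re = _
  rw [Complex.re_ofReal_mul, ← n2_sq_eq T.summable, inv_mul_eq_div]

/-- unitaries of the corner algebra are the unitaries of the corner -/
lemma cornerU {a : Cor ho} (ha : a ∈ unitary (Cor ho)) : CornerU M o a.val :=
  ⟨a.val_mem, a.o_mul, a.mul_o,
    by simpa using congrArg val (Unitary.star_mul_self_of_mem ha),
    by simpa using congrArg val (Unitary.mul_star_self_of_mem ha)⟩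

lemma rootApprox (T : Setup M ξ) (hUA : UnitaryApproxOut M ξ) (hpos : 0 < trP ξ o) {θ : ℝ}
    (hθ : 0 < θ) : Encode.RootApprox (state T ho hpos) θ := by
  intro u hu
  have hc := cornerU hu
  obtain ⟨h, E, -, hE, herr⟩ := hUA o ho u.val hc.mem hc.left hc.right hc.star_mul hc.mul_star
    (Real.sqrt (θ * trP ξ o)) (Real.sqrt_pos.2 (mul_pos hθ hpos)) 0
  set e := ZMod.finEquiv (2 * h + 1) with he
  let E' : ZMod (2 * h + 1) → Cor ho := fun m =>
    ⟨E (e.symm m), (hE.proj _).1, hE.mul_cell _, hE.cell_mul _⟩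
  have hres : Encode.Res E' := by
    refine ⟨fun i => ext (hE.proj _).star_eq, fun i => ext (hE.proj _).mul_self,
      fun i j hij => ext (hE.orth _ _ fun h' => hij (e.symm.injective h')), ext ?_⟩
    rw [val_sum, val_one]
    exact (Equiv.sum_comp e.symm.toEquiv E).trans hE.total
  refine ⟨h, E', hres, ?_⟩
  have hspec : (Encode.spec E' fun m => ZMod.stdAddChar m).val = ∑ m : Fin (2 * h + 1),
      Complex.exp (2 * Real.pi * Complex.I * (m.1 : ℂ) / (2 * h + 1 : ℕ)) • E m := by
    rw [Encode.spec, val_sum]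
    refine ((Equiv.sum_comp e.toEquiv _).symm).trans (Finset.sum_congr rfl fun m _ => ?_)
    have h1 : e m = ((m.1 : ℤ) : ZMod (2 * h + 1)) := by
      apply ZMod.val_injective
      rw [Int.cast_natCast, ZMod.val_natCast, Nat.mod_eq_of_lt m.2]
      rfl
    show ZMod.stdAddChar (e m) • E (e.symm (e m)) = _
    rw [RingEquiv.symm_apply_apply, h1, ZMod.stdAddChar_coe]
    norm_cast
  rw [state_sq, val_sub, hspec, div_le_iff₀ hpos]
  have h2 := pow_le_pow_left₀ (n2_nonneg _) herr 2
  rw [Real.sq_sqrt (mul_pos hθ hpos).le, ← n2_sub_comm T.summable] at h2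
  exact h2

end Cor

/-- (E1) -/
theorem cornerEncodeOut (T : Setup M ξ) (hUA : UnitaryApproxOut M ξ)
    (hEnc : Encode.EncodeOut.{u}) : CornerEncodeOut M ξ := by
  intro C ε hε
  obtain ⟨P0, hP0⟩ := hEnc C ε hε
  refine ⟨P0, fun P hP hPP o ho hpos τ _ hcard U hU => ?_⟩
  let U' : τ → Cor ho := fun t => ⟨U t, (hU t).mem, (hU t).left, (hU t).right⟩
  have hU' : ∀ t, U' t ∈ unitary (Cor ho) := fun t =>
    Unitary.mem_iff.2 ⟨Cor.ext (hU t).star_mul, Cor.ext (hU t).mul_star⟩
  obtain ⟨w, hw, X, hX, herr⟩ := hP0 P hP hPP (Cor ho) (Cor.state T ho hpos)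
    (fun _ hθ => Cor.rootApprox T hUA hpos hθ) τ hcard U' hU'
  refine ⟨fun e => (w e).val, fun e => Cor.cornerU (hw e), fun t => (X t).val, fun t => ?_, ?_⟩
  · refine ⟨?_, (X t).val_mem, (X t).o_mul, (X t).mul_o⟩
    have hall : ∀ a ∈ Algebra.adjoin ℂ (Set.range w),
        a.val ∈ Algebra.adjoin ℂ (insert o (Set.range fun e => (w e).val)) := fun a ha => by
      induction ha using Algebra.adjoin_induction with
      | mem a ha =>
        obtain ⟨e, rfl⟩ := ha
        exact Algebra.subset_adjoin (Set.mem_insert_of_mem _ ⟨e, rfl⟩)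
      | algebraMap c =>
        rw [Cor.val_algebraMap]
        exact Subalgebra.smul_mem _ (Algebra.subset_adjoin (Set.mem_insert _ _)) c
      | add a b _ _ ha hb => rw [Cor.val_add]; exact add_mem ha hb
      | mul a b _ _ ha hb => rw [Cor.val_mul]; exact mul_mem ha hb
    exact hall _ (hX t)
  · simp only [Cor.state_sq, ← Finset.sum_div, div_le_iff₀ hpos, Cor.val_sub] at herr
    exact herr

end Vale.Agent.P085
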