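import Vale.Agent.P085.Step.Interfaces
import Vale.Agent.P085.Toolkit.Trace

/-!
# Writing matrix units and free blocks into one self-adjoint element

With `s` the sum of the cells of `S` and `W` carrying the units to the hub `o` and the blocks, the
element `(1 - s) y (1 - s) + c (W + star W)` returns each of them as one of its corners.
-/

namespace Vale.Agent.P085

universe u

variable {H : Type u} [NormedAddCommGroup H] [InnerProductSpace ℂ H] [CompleteSpace H]

/-- (E3) -/
theorem decodeOut {M : VonNeumannAlgebra H} {ξ : ℕ → H} (T : Setup M ξ) : DecodeOut M ξ := by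
  intro ι _ E hE S o ho e he heo v hv y hy hys δ hδ
  classical
  -- the matrix units
  have heE : ∀ i, e i * E i = e i := fun i => by
    have h : star (e i - e i * E i) * (e i - e i * E i) = 0 := by
      simp only [star_sub, star_mul, (hE.proj i).star_eq, sub_mul, mul_sub, mul_assoc]
      simp only [← mul_assoc (star (e i)), (he i).2.1, (hE.proj i).mul_self, sub_self]
    exact (sub_eq_zero.1 (CStarRing.star_mul_self_eq_zero_iff _ |>.1 h)).symm
  have hEe : ∀ i, E o * e i = e i := fun i => by
    rw [← (he i).2.2, mul_assoc, (he i).2.1, heE]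
  have heS : ∀ i, star (e i) * E o = star (e i) := fun i => by
    rw [← (hE.proj o).star_eq, ← star_mul, hEe]
  have hES : ∀ i, E i * star (e i) = star (e i) := fun i => by
    rw [← (hE.proj i).star_eq, ← star_mul, heE]
  have heM : ∀ i, e i ∈ M := fun i => (he i).1
  have hdist : ∀ i j x, i ≠ j → E i * (E j * x) = 0 := fun i j x h => by
    rw [← mul_assoc, hE.orth i j h, zero_mul]
  -- the projection on the written rows
  set s : H →L[ℂ] H := ∑ i ∈ S, E i with hs_def
  have hsM : s ∈ M := sum_mem fun i _ => (hE.proj i).1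
  have hss : s * s = s := by
    rw [hs_def, Finset.sum_mul]
    refine Finset.sum_congr rfl fun i hi => ?_
    rw [Finset.mul_sum, Finset.sum_eq_single i (fun j _ hj => hE.orth i j (Ne.symm hj))
      (fun h => absurd hi h), (hE.proj i).mul_self]
  have hs : IsProj M s := by
    refine ⟨hsM, hss, ?_⟩
    rw [IsSelfAdjoint, hs_def, star_sum]
    exact Finset.sum_congr rfl fun i _ => (hE.proj i).star_eq
  have hts : IsProj M (1 - s) := hs.one_sub
  have hns : n2 ξ s = Real.sqrt (∑ i ∈ S, trP ξ (E i)) := by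
    have h := vecState_proj T.summable hs.2
    rw [hs_def, vecState_sum T.summable] at h
    simp only [vecState_proj T.summable (hE.proj _).2] at h
    rw [show ∑ i ∈ S, trP ξ (E i) = trP ξ s from by exact_mod_cast h, trP,
      Real.sqrt_sq (n2_nonneg _)]
  have hEt : ∀ a ∈ S, E a * (1 - s) = 0 := fun a ha => by
    rw [mul_sub, mul_one, hs_def, Finset.mul_sum, Finset.sum_eq_single a
      (fun j _ hj => hE.orth a j (Ne.symm hj)) (fun h => absurd ha h), (hE.proj a).mul_self,
      sub_self]
  -- the blocks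
  set B : ι → ι → (H →L[ℂ] H) := fun a i => star (e a) * v a i * e i with hB
  have hBl : ∀ a i, E a * B a i = B a i := fun a i => by
    rw [hB]; simp only [← mul_assoc, hES]
  have hBr : ∀ a i, B a i * E i = B a i := fun a i => by
    rw [hB]; simp only [mul_assoc, heE]
  set W : H →L[ℂ] H :=
    ∑ i ∈ Finset.univ.erase o, e i + ∑ a ∈ S.erase o, ∑ i ∈ Sᶜ, B a i with hW
  have hWM : W ∈ M := add_mem (sum_mem fun i _ => heM i) (sum_mem fun a _ => sum_mem fun i _ =>
    mul_mem (mul_mem (star_mem (heM a)) (hv a i).1) (heM i))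
  -- corners of `W`
  have hcor : ∀ a b, E a * W * E b =
      (∑ i ∈ Finset.univ.erase o, E a * (E o * e i * E i) * E b) +
        ∑ a' ∈ S.erase o, ∑ i ∈ Sᶜ, E a * (E a' * B a' i * E i) * E b := fun a b => by
    simp only [hW, hEe, heE, hBl, hBr, mul_add, add_mul, Finset.mul_sum, Finset.sum_mul]
  have hz : ∀ a b a' b' x, a ≠ a' ∨ b' ≠ b → E a * (E a' * x * E b') * E b = 0 := by
    intro a b a' b' x h
    rcases h with h | h
    · simp only [mul_assoc, hdist a a' _ h, zero_mul]
    · rw [mul_assoc (E a), mul_assoc (E a' * x), hE.orth b' b h, mul_zero, mul_zero]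
  have c1 : ∀ i, i ≠ o → E o * W * E i = e i := fun i hi => by
    rw [hcor, Finset.sum_eq_single i (fun j _ hj => hz _ _ _ _ _ (Or.inr hj))
      (fun h => absurd (Finset.mem_erase.2 ⟨hi, Finset.mem_univ i⟩) h),
      Finset.sum_eq_zero fun a ha => Finset.sum_eq_zero fun j _ =>
        hz _ _ _ _ _ (Or.inl (Finset.ne_of_mem_erase ha).symm), add_zero, hEe, heE, hEe, heE]
  have c2 : ∀ i, E i * W * E o = 0 := fun i => by
    rw [hcor, Finset.sum_eq_zero fun j hj => hz _ _ _ _ _ (Or.inr (Finset.ne_of_mem_erase hj)),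
      Finset.sum_eq_zero fun a _ => Finset.sum_eq_zero fun j hj =>
        hz _ _ _ _ _ (Or.inr (fun h => Finset.mem_compl.1 hj (h ▸ ho))), add_zero]
  have c3 : ∀ a ∈ S, a ≠ o → ∀ i, i ∉ S → E a * W * E i = B a i := by
    intro a ha hao i hi
    rw [hcor, Finset.sum_eq_zero fun j _ => hz _ _ _ _ _ (Or.inl hao), zero_add,
      Finset.sum_eq_single a
        (fun b _ hb => Finset.sum_eq_zero fun j _ => hz _ _ _ _ _ (Or.inl (Ne.symm hb)))
        (fun h => absurd (Finset.mem_erase.2 ⟨hao, ha⟩) h),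
      Finset.sum_eq_single i (fun j _ hj => hz _ _ _ _ _ (Or.inr hj))
        (fun h => absurd (Finset.mem_compl.2 hi) h), hBl, hBr, hBl, hBr]
  have c4 : ∀ a ∈ S, ∀ i, i ∉ S → E i * W * E a = 0 := by
    intro a ha i hi
    rw [hcor, Finset.sum_eq_zero fun j _ => hz _ _ _ _ _ (Or.inl (show i ≠ o from fun h => hi (h ▸ ho))),
      Finset.sum_eq_zero fun b hb => Finset.sum_eq_zero fun j _ => hz _ _ _ _ _
        (Or.inl (show i ≠ b from fun h => hi (h ▸ Finset.mem_of_mem_erase hb))), add_zero]
  -- the element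
  set c : ℝ := δ / (‖W + star W‖ + 1) with hc
  have hc0 : 0 < c := by positivity
  have hcW : ‖(c : ℂ) • (W + star W)‖ ≤ δ := by
    rw [norm_smul, Complex.norm_real, Real.norm_of_nonneg hc0.le, hc, div_mul_eq_mul_div,
      div_le_iff₀ (by positivity)]
    nlinarith [norm_nonneg (W + star W)]
  have hu : (c : ℂ) • (W + star W) ∈ M :=
    SMulMemClass.smul_mem (s := M.toStarSubalgebra) (c : ℂ) (add_mem hWM (star_mem hWM))
  set y' : H →L[ℂ] H := (1 - s) * y * (1 - s) + (c : ℂ) • (W + star W) with hy'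
  have hy'M : y' ∈ M := add_mem (mul_mem (mul_mem hts.1 hy) hts.1) hu
  have hy's : IsSelfAdjoint y' := by
    rw [IsSelfAdjoint, hy', star_add, star_mul, star_mul, hts.star_eq, hys.star_eq, star_smul,
      star_add, star_star, ← mul_assoc, add_comm (star W)]
    simp
  have hn : ‖(1 - s) * y * (1 - s)‖ ≤ ‖y‖ := by
    have := hts.norm_le_one
    calc ‖(1 - s) * y * (1 - s)‖ ≤ ‖1 - s‖ * ‖y‖ * ‖1 - s‖ :=
          (norm_mul_le _ _).trans (by gcongr; exact norm_mul_le _ _)
      _ ≤ 1 * ‖y‖ * 1 := by gcongr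
      _ = ‖y‖ := by ring
  refine ⟨y', hy'M, hy's, (norm_add_le _ _).trans (add_le_add hn hcW), ?_, ?_⟩
  · have e1 : y' - y = (c : ℂ) • (W + star W) - (s * y + (1 - s) * (y * s)) := by
      rw [hy']; noncomm_ring
    have b1 : n2 ξ (s * y) ≤ ‖y‖ * n2 ξ s := by
      rw [mul_comm ‖y‖]; exact T.n2_mul_le' hsM hy
    have b2 : n2 ξ ((1 - s) * (y * s)) ≤ ‖y‖ * n2 ξ s := by
      refine (n2_mul_le T.summable _ _).trans ?_
      refine (mul_le_of_le_one_left (n2_nonneg _) hts.norm_le_one).trans ?_
      exact n2_mul_le T.summable _ _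
    rw [e1, sub_eq_add_neg, ← hns]
    refine (n2_add_le T.summable _ _).trans ?_
    rw [n2_neg T.summable]
    linarith [n2_add_le T.summable (s * y) ((1 - s) * (y * s)),
      (T.n2_le_norm ((c : ℂ) • (W + star W))).trans hcW]
  set A := StarAlgebra.adjoin ℂ (Set.range E ∪ {y'}) with hA
  have hEA : ∀ i, E i ∈ A := fun i => StarAlgebra.subset_adjoin ℂ _ (Or.inl ⟨i, rfl⟩)
  have hyA : y' ∈ A := StarAlgebra.subset_adjoin ℂ _ (Or.inr rfl)
  have read : ∀ a b, a ∈ S → E b * W * E a = 0 → E a * W * E b ∈ A := by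
    intro a b ha h0
    have h1 : E a * star W * E b = 0 := by
      have := congrArg star h0
      rwa [star_mul, star_mul, (hE.proj a).star_eq, (hE.proj b).star_eq, star_zero,
        ← mul_assoc] at this
    have h2 : E a * y' * E b = (c : ℂ) • (E a * W * E b) := by
      simp only [hy', mul_add, add_mul, mul_smul_comm, smul_mul_assoc, ← mul_assoc (E a), hEt a ha,
        zero_mul, zero_add, h1, add_zero, smul_add, smul_zero]
    have h3 : E a * y' * E b ∈ A := mul_mem (mul_mem (hEA a) hyA) (hEA b)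
    have h4 := SMulMemClass.smul_mem (s := A) (c : ℂ)⁻¹ h3
    rwa [h2, smul_smul, inv_mul_cancel₀ (by exact_mod_cast hc0.ne'), one_smul] at h4
  have heA : ∀ i, e i ∈ A := fun i => by
    by_cases hi : i = o
    · subst hi
      rw [heo]; exact hEA _
    · rw [← c1 i hi]
      exact read o i ho (c2 i)
  refine ⟨heA, fun a ha hao i hi => ?_⟩
  have hBA : B a i ∈ A := by
    rw [← c3 a ha hao i hi]
    exact read a i ha (c4 a ha i hi)
  have hv' : v a i = e a * B a i * star (e i) := by
    rw [hB]
    simp only [← mul_assoc, (he a).2.2]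
    rw [mul_assoc (E o * v a i), (he i).2.2, (hv a i).2]
  rw [hv']
  exact mul_mem (mul_mem (heA a) hBA) (star_mem (heA i))

end Vale.Agent.P085
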