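import Vale.Agent.P085.Step.Interfaces
import Vale.Agent.P085.Toolkit.Trace

/-!
# The step (E): refine, write unitaries into `y`, decode `z`
-/

namespace Vale.Agent.P085

open scoped InnerProductSpace

universe u

variable {H : Type u} [NormedAddCommGroup H] [InnerProductSpace ℂ H] [CompleteSpace H]
variable {M : VonNeumannAlgebra H} {ξ : ℕ → H}

namespace Setup

variable (T : Setup M ξ)
include T

/-- multiplying by contractions of `M` decreases the trace norm -/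
lemma n2_sandwich {a b x : H →L[ℂ] H} (ha : a ∈ M) (hb : b ∈ M) (hx : x ∈ M) (ha1 : ‖a‖ ≤ 1)
    (hb1 : ‖b‖ ≤ 1) : n2 ξ (a * x * b) ≤ n2 ξ x := by
  calc n2 ξ (a * x * b) ≤ n2 ξ (a * x) * ‖b‖ := T.n2_mul_le' (mul_mem ha hx) hb
    _ ≤ n2 ξ (a * x) := mul_le_of_le_one_right (n2_nonneg _) hb1
    _ ≤ ‖a‖ * n2 ξ x := n2_mul_le T.summable _ _
    _ ≤ n2 ξ x := mul_le_of_le_one_left (n2_nonneg _) ha1

/-- replacing two unitaries by nearby elements moves the decoded element by little -/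
lemma n2_sq_decoded {U₁ U₂ X₁ X₂ : H →L[ℂ] H} (h1 : U₁ ∈ M) (h2 : U₂ ∈ M) (h3 : X₁ ∈ M)
    (h4 : X₂ ∈ M) {s : ℝ} (hs : 0 < s) :
    n2 ξ ((1 / (2 * Complex.I * (s : ℂ))) • ((U₁ - star U₁) + Complex.I • (U₂ - star U₂)) -
      (1 / (2 * Complex.I * (s : ℂ))) • ((X₁ - star X₁) + Complex.I • (X₂ - star X₂))) ^ 2 ≤
      2 / s ^ 2 * (n2 ξ (X₁ - U₁) ^ 2 + n2 ξ (X₂ - U₂) ^ 2) := by
  have e : (U₁ - star U₁) + Complex.I • (U₂ - star U₂) -
      ((X₁ - star X₁) + Complex.I • (X₂ - star X₂)) =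
      ((U₁ - X₁) - star (U₁ - X₁)) + Complex.I • ((U₂ - X₂) - star (U₂ - X₂)) := by
    rw [star_sub, star_sub]
    module
  rw [← smul_sub, e, n2_smul T.summable]
  have hn : ‖(1 / (2 * Complex.I * (s : ℂ)))‖ = 1 / (2 * s) := by
    simp [abs_of_pos hs]
  have hd : ∀ a, a ∈ M → n2 ξ (a - star a) ≤ 2 * n2 ξ a := fun a ha => by
    have := n2_sub_le T.summable a 0 (star a)
    rw [sub_zero, zero_sub, n2_neg T.summable, T.n2_star ha] at this
    linarith
  have hb : n2 ξ (((U₁ - X₁) - star (U₁ - X₁)) + Complex.I • ((U₂ - X₂) - star (U₂ - X₂))) ≤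
      2 * n2 ξ (X₁ - U₁) + 2 * n2 ξ (X₂ - U₂) := by
    refine (n2_add_le T.summable _ _).trans ?_
    rw [n2_smul T.summable, Complex.norm_I, one_mul, n2_sub_comm T.summable X₁,
      n2_sub_comm T.summable X₂]
    linarith [hd _ (sub_mem h1 h3), hd _ (sub_mem h2 h4)]
  rw [hn, mul_pow]
  calc (1 / (2 * s)) ^ 2 * n2 ξ _ ^ 2
      ≤ (1 / (2 * s)) ^ 2 * (2 * n2 ξ (X₁ - U₁) + 2 * n2 ξ (X₂ - U₂)) ^ 2 := by
        gcongr; exact n2_nonneg _
    _ ≤ (1 / (2 * s)) ^ 2 * (8 * (n2 ξ (X₁ - U₁) ^ 2 + n2 ξ (X₂ - U₂) ^ 2)) := by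
        gcongr
        nlinarith [sq_nonneg (n2 ξ (X₁ - U₁) - n2 ξ (X₂ - U₂))]
    _ = _ := by field_simp; ring

end Setup

lemma norm_le_one_of_star_mul {v p : H →L[ℂ] H} (hp : IsProj M p) (h : star v * v = p) :
    ‖v‖ ≤ 1 := by
  have h1 : ‖v‖ * ‖v‖ ≤ 1 := by
    rw [← CStarRing.norm_star_mul_self, h]; exact hp.norm_le_one
  nlinarith [norm_nonneg v]

lemma mul_of_star_mul {v p : H →L[ℂ] H} (hp : IsProj M p) (h : star v * v = p) : v * p = v := by
  have h1 : star (v * p - v) * (v * p - v) = 0 := by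
    rw [star_sub, star_mul, hp.star_eq]
    simp only [sub_mul, mul_sub, mul_assoc, ← mul_assoc (star v), h, hp.mul_self, sub_self]
  exact sub_eq_zero.1 (CStarRing.star_mul_self_eq_zero_iff _ |>.1 h1)

lemma smul_memM {a : H →L[ℂ] H} (c : ℂ) (ha : a ∈ M) : c • a ∈ M :=
  M.toStarSubalgebra.smul_mem ha c

/-- two partitions, of `p` and of `1 - p`, form one of `1` -/
lemma IsPartition.sum_elim {ι κ : Type*} [Fintype ι] [Fintype κ] {p : H →L[ℂ] H} (hp : IsProj M p)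
    {E : ι → (H →L[ℂ] H)} {F : κ → (H →L[ℂ] H)} (hE : IsPartition M p E)
    (hF : IsPartition M (1 - p) F) : IsPartition M 1 (Sum.elim E F) := by
  have hpq : p * (1 - p) = 0 := by rw [mul_sub, mul_one, hp.mul_self, sub_self]
  have hqp : (1 - p) * p = 0 := by rw [sub_mul, one_mul, hp.mul_self, sub_self]
  refine ⟨?_, ?_, ?_⟩
  · rintro (x | x)
    exacts [hE.proj x, hF.proj x]
  · rintro (x | x) (x' | x') hne
    · exact hE.orth x x' fun h => hne (by rw [h])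
    · simp only [Sum.elim_inl, Sum.elim_inr]
      rw [← hE.cell_mul x, ← hF.mul_cell x', mul_assoc, ← mul_assoc p, hpq, zero_mul, mul_zero]
    · simp only [Sum.elim_inl, Sum.elim_inr]
      rw [← hF.cell_mul x, ← hE.mul_cell x', mul_assoc, ← mul_assoc (1 - p), hqp, zero_mul,
        mul_zero]
    · exact hF.orth x x' fun h => hne (by rw [h])
  · rw [Fintype.sum_sum_type]
    simp only [Sum.elim_inl, Sum.elim_inr, hE.total, hF.total]
    abel

/-- recovering `z` from its blocks carried to the hub: the error is at most that of the blocks -/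
lemma Setup.n2_sq_recover (T : Setup M ξ) {ι κ : Type*} [Fintype ι] [Fintype κ] [DecidableEq ι]
    [DecidableEq κ] {p q z : H →L[ℂ] H} {E : ι → (H →L[ℂ] H)} {F : κ → (H →L[ℂ] H)}
    (hE : IsPartition M p E) (hF : IsPartition M q F) (hz : z ∈ M) (hzl : p * z = z)
    (hzr : z * q = z) {e : ι → (H →L[ℂ] H)} {f : κ → (H →L[ℂ] H)}
    (he : ∀ i, e i ∈ M ∧ star (e i) * e i = E i) (hf : ∀ j, f j ∈ M ∧ star (f j) * f j = F j)
    (g : ι × κ → (H →L[ℂ] H)) (hg : ∀ b, g b ∈ M) :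
    n2 ξ (∑ b : ι × κ, star (e b.1) * g b * f b.2 - z) ^ 2 ≤
      ∑ b : ι × κ, n2 ξ (g b - e b.1 * z * star (f b.2)) ^ 2 := by
  set D : ι → κ → (H →L[ℂ] H) := fun i j =>
    star (e i) * (g (i, j) - e i * z * star (f j)) * f j with hDdef
  have hm : ∀ i j, g (i, j) - e i * z * star (f j) ∈ M := fun i j =>
    sub_mem (hg _) (mul_mem (mul_mem (he i).1 hz) (star_mem (hf j).1))
  have hDM : ∀ i j, D i j ∈ M := fun i j =>
    mul_mem (mul_mem (star_mem (he i).1) (hm i j)) (hf j).1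
  have hD : ∀ i j, E i * D i j * F j = D i j := by
    intro i j
    have h1 : E i * star (e i) = star (e i) := by
      rw [← (hE.proj i).star_eq, ← star_mul, mul_of_star_mul (hE.proj i) (he i).2]
    simp only [hDdef, ← mul_assoc, h1]
    rw [mul_assoc, mul_of_star_mul (hF.proj j) (hf j).2]
  have hblock : ∀ i j, star (e i) * (e i * z * star (f j)) * f j = E i * z * F j := fun i j => by
    simp only [← mul_assoc]
    rw [(he i).2, mul_assoc _ (star _), (hf j).2]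
  have hz' : z = ∑ b : ι × κ, star (e b.1) * (e b.1 * z * star (f b.2)) * f b.2 := by
    simp only [hblock]
    rw [Fintype.sum_prod_type]
    simp only [← Finset.mul_sum, hF.total, ← Finset.sum_mul, hE.total, hzl, hzr]
  conv_lhs => rw [hz', ← Finset.sum_sub_distrib]
  have h2 : ∀ b : ι × κ, star (e b.1) * g b * f b.2 -
      star (e b.1) * (e b.1 * z * star (f b.2)) * f b.2 = D b.1 b.2 := fun b => by
    simp only [hDdef, mul_sub, sub_mul]
  have h1 := T.n2_sq_blocks hE hF D hDM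
  simp only [hD] at h1
  simp only [h2, h1]
  refine Finset.sum_le_sum fun b _ => pow_le_pow_left₀ (n2_nonneg _) ?_ 2
  exact T.n2_sandwich (star_mem (he _).1) (hf _).1 (hm _ _)
    (by rw [norm_star]; exact norm_le_one_of_star_mul (hE.proj _) (he _).2)
    (norm_le_one_of_star_mul (hF.proj _) (hf _).2)

/-- a block of `z` carried to the hub has no larger fourth moment -/
lemma Setup.n2_quad_le (T : Setup M ξ) {P Q z e f : H →L[ℂ] H} (hP : IsProj M P)
    (hQ : IsProj M Q) (hz : z ∈ M) (he : e ∈ M) (he1 : star e * e = P) (hf : f ∈ M)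
    (hf1 : star f * f = Q) :
    n2 ξ (star (e * z * star f) * (e * z * star f)) ≤
      n2 ξ (star (P * z * Q) * (P * z * Q)) := by
  have hPm : P * z * Q ∈ M := mul_mem (mul_mem hP.1 hz) hQ.1
  have hQ1 : f * Q = f := mul_of_star_mul hQ hf1
  have hQ2 : Q * star f = star f := by rw [← hQ.star_eq, ← star_mul, hQ1]
  have e1 : star (e * z * star f) * (e * z * star f) =
      f * (star (P * z * Q) * (P * z * Q)) * star f := by
    simp only [star_mul, star_star, hP.star_eq, hQ.star_eq, mul_assoc, hQ2]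
    rw [← mul_assoc (star e) e, he1, ← mul_assoc f Q, hQ1, ← mul_assoc P P, hP.mul_self]
  rw [e1]
  have h1 := norm_le_one_of_star_mul hQ hf1
  exact T.n2_sandwich hf (star_mem hf) (mul_mem (star_mem hPm) hPm) h1 (by rwa [norm_star])

/-- the error budget of the step -/
lemma step_budget {κ ε s n N K r P a b : ℝ} (hK : 1 ≤ K) (hr : 0 < r) (hN : 0 < N)
    (hn : n = 2 * K * r) (hκ : κ = ε / (32 * K)) (hκ0 : 0 < κ) (hs : s ^ 2 = κ ^ 2 * n)
    (hP : 0 ≤ P) (hPn : P ≤ n) (ha : a ≤ 4 / r)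
    (hb : b ≤ κ ^ 2 * ε ^ 2 / 16 * P ^ 2 * (1 / n)) :
    2 * (4 * s ^ 2 * a + N * (ε ^ 2 / (16 * N))) + 2 * (2 / s ^ 2 * b) ≤ ε ^ 2 := by
  have hn0 : 0 < n := by rw [hn]; positivity
  have t1 : 4 * s ^ 2 * (4 / r) ≤ ε ^ 2 / 16 := by
    have e0 : 4 * s ^ 2 * (4 / r) = 32 * κ ^ 2 * K := by rw [hs, hn]; field_simp; ring
    have e1 : 32 * κ ^ 2 * K = ε ^ 2 / (32 * K) := by rw [hκ]; field_simp
    rw [e0, e1]
    gcongr
    linarith
  have t2 : 2 / s ^ 2 * (κ ^ 2 * ε ^ 2 / 16 * P ^ 2 * (1 / n)) ≤ ε ^ 2 / 8 := by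
    have h5 : P ^ 2 ≤ n ^ 2 := pow_le_pow_left₀ hP hPn 2
    calc 2 / s ^ 2 * (κ ^ 2 * ε ^ 2 / 16 * P ^ 2 * (1 / n))
        = ε ^ 2 / 8 * (P ^ 2 / n ^ 2) := by rw [hs]; field_simp; ring
      _ ≤ ε ^ 2 / 8 * 1 := by gcongr; exact (div_le_one (by positivity)).2 h5
      _ = _ := mul_one _
  have t3 : N * (ε ^ 2 / (16 * N)) = ε ^ 2 / 16 := by field_simp
  have t4 := mul_le_mul_of_nonneg_left ha (show (0:ℝ) ≤ 4 * s ^ 2 by positivity)
  have t5 := mul_le_mul_of_nonneg_left hb (show (0:ℝ) ≤ 2 / s ^ 2 by positivity)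
  rw [t3]
  nlinarith [t1, t2, t4, t5, sq_nonneg ε]

/-- (E) -/
theorem stepOut (T : Setup M ξ) (hFlat : FlatOut M ξ) (hEquiv : EquivOut M ξ)
    (hCE : CornerEncodeOut M ξ) (hClip : ClipOut M ξ) (hDec : DecodeOut M ξ) : StepOut M ξ := by
  intro p hp hp2 K P Q hF y hy hys z hz hz1 hzl hzr δ hδ ε hε
  have hK := hF.pos
  have hKr : (1:ℝ) ≤ K := by exact_mod_cast hK
  -- the constants, in the order of choice
  obtain ⟨q, hq2, hqy⟩ : ∃ q : ℕ, 2 ≤ q ∧ 4 * ‖y‖ / δ ≤ q :=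
    ⟨⌈4 * ‖y‖ / δ⌉₊ + 2, by omega, by push_cast; linarith [Nat.le_ceil (4 * ‖y‖ / δ)]⟩
  have hqr : (2:ℝ) ≤ q := by exact_mod_cast hq2
  set κ : ℝ := ε / (32 * K) with hκdef
  have hκ : 0 < κ := by positivity
  obtain ⟨P0, hP0⟩ := hCE (8 * q ^ 2) (κ ^ 2 * ε ^ 2 / 16) (by positivity)
  obtain ⟨t, ht, htP⟩ : ∃ t : ℕ, 0 < t ∧ P0 ≤ 4 * K * q * t :=
    ⟨P0 + 1, Nat.succ_pos _, le_trans (Nat.le_succ P0) (Nat.le_mul_of_pos_left _ (by positivity))⟩
  obtain ⟨Pr, hPr, hPlo, hPhi⟩ :=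
    Nat.exists_prime_lt_and_le_two_mul (4 * K * q * t) (by positivity)
  obtain ⟨r, hr⟩ : ∃ r, r = 8 * q ^ 2 * t := ⟨_, rfl⟩
  have hr0 : 0 < r := by rw [hr]; positivity
  have hrr : (0:ℝ) < r := by exact_mod_cast hr0
  obtain ⟨n, hn⟩ : ∃ n : ℝ, n = 2 * (K:ℝ) * r := ⟨_, rfl⟩
  have hn0 : 0 < n := by rw [hn]; positivity
  have hnr : n = 16 * K * (q:ℝ) ^ 2 * t := by rw [hn, hr]; push_cast; ring
  obtain ⟨P', Q', hP', hQ', htP', htQ', hflat⟩ :=
    hFlat p hp hp2 K P Q hK hF.partP hF.partQ hF.trP_eq hF.trQ_eq z hz hz1 hzl hzr r hr0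
  refine ⟨r, P', Q', hr0, hP', hQ', htP', htQ', ?_⟩
  -- all cells
  set E : (Fin K × Fin r) ⊕ (Fin K × Fin r) → (H →L[ℂ] H) :=
    Sum.elim (Function.uncurry P') (Function.uncurry Q')
  have hEP : IsPartition M p (Function.uncurry P') := hF.partP.refine' hP'
  have hEQ : IsPartition M (1 - p) (Function.uncurry Q') := hF.partQ.refine' hQ'
  have hE : IsPartition M 1 E := hEP.sum_elim hp hEQ
  have htr : ∀ i, trP ξ (E i) = 1 / n := by
    rintro (⟨a, i⟩ | ⟨a, i⟩)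
    exacts [(htP' a i).trans (by rw [hn]), (htQ' a i).trans (by rw [hn])]
  -- the rows `S` and the hub
  have hq4 : 4 ≤ q ^ 2 := by nlinarith
  have hk : 16 * K * t ≤
      (Finset.univ : Finset ((Fin K × Fin r) ⊕ (Fin K × Fin r))).card := by
    simp only [Finset.card_univ, Fintype.card_sum, Fintype.card_prod, Fintype.card_fin, hr]
    nlinarith [Nat.mul_pos hK ht]
  obtain ⟨S, -, hS⟩ := Finset.exists_subset_card_eq hk
  obtain ⟨o, ho⟩ : ∃ o, o ∈ S := Finset.card_pos.1 (by rw [hS]; positivity)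
  have hEo : IsProj M (E o) := hE.proj o
  choose f hf hf1 hf2 using fun i => hEquiv (E i) (E o) (hE.proj i) hEo (by rw [htr, htr])
  set e := Function.update f o (E o) with hedef
  have he : ∀ i, e i ∈ M ∧ star (e i) * e i = E i ∧ e i * star (e i) = E o := by
    intro i
    by_cases hi : i = o
    · subst hi
      simp only [hedef, Function.update_self, hEo.star_eq, hEo.mul_self]
      exact ⟨hEo.1, trivial, trivial⟩
    · simp only [hedef, Function.update_of_ne hi]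
      exact ⟨hf i, hf1 i, hf2 i⟩
  have heo : e o = E o := Function.update_self ..
  have he1 : ∀ i, ‖e i‖ ≤ 1 := fun i => norm_le_one_of_star_mul (hE.proj i) (he i).2.1
  have he2 : ∀ i, e i * E i = e i := fun i => mul_of_star_mul (hE.proj i) (he i).2.1
  have he3 : ∀ i, E o * e i = e i := fun i => by
    rw [← (he i).2.2, mul_assoc, (he i).2.1, he2]
  have he4 : ∀ i, star (e i) * E o = star (e i) := fun i => by
    rw [← hEo.star_eq, ← star_mul, he3]
  -- the blocks of `z` in the hub corner and their targets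
  set G : Fin K × Fin r → Fin K × Fin r → (H →L[ℂ] H) :=
    fun x x' => e (.inl x) * z * star (e (.inr x')) with hGdef
  have hG : ∀ x x', G x x' ∈ M := fun x x' =>
    mul_mem (mul_mem (he _).1 hz) (star_mem (he _).1)
  have hGl : ∀ x x', E o * G x x' = G x x' := fun x x' => by
    simp only [hGdef, ← mul_assoc, he3]
  have hGr : ∀ x x', G x x' * E o = G x x' := fun x x' => by
    simp only [hGdef, mul_assoc, he4]
  set s : ℝ := κ * Real.sqrt n with hsdef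
  have hs : 0 < s := by positivity
  have hs2 : s ^ 2 = κ ^ 2 * n := by rw [hsdef, mul_pow, Real.sq_sqrt hn0.le]
  obtain ⟨N, hN⟩ : ∃ N : ℝ,
      N = (Fintype.card ((Fin K × Fin r) × (Fin K × Fin r)) : ℝ) := ⟨_, rfl⟩
  have hN0 : 0 < N := by
    rw [hN]
    have : 0 < K * r := Nat.mul_pos hK hr0
    simp only [Fintype.card_prod, Fintype.card_fin]
    exact_mod_cast Nat.mul_pos this this
  choose U₁ U₂ hU₁ hU₂ hUG using fun b : (Fin K × Fin r) × (Fin K × Fin r) =>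
    hClip (E o) hEo (G b.1 b.2) (hG _ _) (hGl _ _) (hGr _ _) s hs (ε ^ 2 / (16 * N)) (by positivity)
  -- encode the targets
  have hcardT : Fintype.card (((Fin K × Fin r) × (Fin K × Fin r)) ⊕
      ((Fin K × Fin r) × (Fin K × Fin r))) ≤ 8 * q ^ 2 * Pr ^ 2 := by
    simp only [Fintype.card_sum, Fintype.card_prod, Fintype.card_fin, hr]
    have h1 : (4 * K * q * t) ^ 2 ≤ Pr ^ 2 := Nat.pow_le_pow_left hPlo.le 2
    calc _ = 8 * q ^ 2 * (4 * K * q * t) ^ 2 := by ring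
      _ ≤ _ := Nat.mul_le_mul_left _ h1
  obtain ⟨v, hv, X, hX, hXerr⟩ := hP0 Pr hPr (le_trans htP hPlo.le) (E o) hEo
    (by rw [htr]; positivity) _ hcardT (Sum.elim U₁ U₂)
    (by rintro (b | b); exacts [hU₁ b, hU₂ b])
  -- place the slots
  have hslots : Fintype.card (Fin Pr × Fin Pr) ≤
      Fintype.card ({a // a ∈ S.erase o} × {i // i ∈ Sᶜ}) := by
    simp only [Fintype.card_prod, Fintype.card_fin, Fintype.card_coe, Finset.card_compl,
      Fintype.card_sum, Finset.card_erase_of_mem ho, hS]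
    have h1 : 8 * K * t ≤ 16 * K * t - 1 := by
      have : 0 < K * t := Nat.mul_pos hK ht
      rw [mul_assoc 8, mul_assoc 16]
      omega
    have h2 : 8 * K * q ^ 2 * t ≤ K * r + K * r - 16 * K * t := by
      refine Nat.le_sub_of_add_le ?_
      rw [hr]
      nlinarith [Nat.mul_le_mul_left (K * t) hq4]
    calc Pr * Pr ≤ (2 * (4 * K * q * t)) * (2 * (4 * K * q * t)) := Nat.mul_le_mul hPhi hPhi
      _ = (8 * K * t) * (8 * K * q ^ 2 * t) := by ring
      _ ≤ _ := Nat.mul_le_mul h1 h2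
  obtain ⟨φ⟩ := Function.Embedding.nonempty_of_card_le hslots
  set ψ : Fin Pr × Fin Pr → ((Fin K × Fin r) ⊕ (Fin K × Fin r)) ×
      ((Fin K × Fin r) ⊕ (Fin K × Fin r)) := fun x => ((φ x).1.1, (φ x).2.1) with hψdef
  have hψ : Function.Injective ψ := fun x x' h => by
    simp only [hψdef, Prod.mk.injEq] at h
    exact φ.injective (Prod.ext (Subtype.ext h.1) (Subtype.ext h.2))
  set vv : ((Fin K × Fin r) ⊕ (Fin K × Fin r)) → ((Fin K × Fin r) ⊕ (Fin K × Fin r)) →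
      (H →L[ℂ] H) := fun a i => Function.extend ψ v (fun _ => E o) (a, i) with hvvdef
  have hvv : ∀ a i, vv a i ∈ M ∧ E o * vv a i * E o = vv a i := by
    intro a i
    by_cases h : ∃ x, ψ x = (a, i)
    · obtain ⟨x, hx⟩ := h
      simp only [hvvdef, ← hx, hψ.extend_apply]
      exact ⟨(hv x).mem, by rw [(hv x).left, (hv x).right]⟩
    · simp only [hvvdef, Function.extend_apply' _ _ _ h]
      exact ⟨hEo.1, by rw [hEo.mul_self, hEo.mul_self]⟩
  obtain ⟨y', hy', hy's, hy'n, hy'2, hdec1, hdec2⟩ :=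
    hDec _ E hE S o ho e he heo vv hvv y hy hys (δ / 2) (by positivity)
  refine ⟨y', hy', hy's, by linarith, ?_, ?_⟩
  · have hsum : ∑ i ∈ S, trP ξ (E i) = 1 / (q:ℝ) ^ 2 := by
      rw [Finset.sum_congr rfl fun i _ => htr i, Finset.sum_const, hS, nsmul_eq_mul, hnr]
      have : (t:ℝ) ≠ 0 := Nat.cast_ne_zero.2 ht.ne'
      push_cast
      field_simp
    rw [hsum, Real.sqrt_div' _ (sq_nonneg _), Real.sqrt_one, Real.sqrt_sq (by positivity)] at hy'2
    have h1 := (div_le_iff₀ hδ).1 hqy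
    have h2 : 2 * ‖y‖ * (1 / (q:ℝ)) ≤ δ / 2 := by
      rw [mul_one_div, div_le_iff₀ (by positivity)]
      linarith
    linarith
  -- decode
  set 𝒜 := StarAlgebra.adjoin ℂ
    (Set.range (Function.uncurry P') ∪ Set.range (Function.uncurry Q') ∪ {y'})
  have hrange : Set.range E = Set.range (Function.uncurry P') ∪ Set.range (Function.uncurry Q') :=
    Set.Sum.elim_range _ _
  rw [hrange] at hdec1 hdec2
  have hEmem : ∀ i, E i ∈ 𝒜 := fun i =>
    StarAlgebra.subset_adjoin ℂ _ (Or.inl (hrange ▸ Set.mem_range_self i))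
  have hvA : ∀ x, v x ∈ 𝒜 := fun x => by
    have h1 := (φ x).1.2
    have h2 := (φ x).2.2
    rw [Finset.mem_erase] at h1
    rw [Finset.mem_compl] at h2
    have h3 := hdec2 _ h1.2 h1.1 _ h2
    simp only [hvvdef] at h3
    rwa [show ((φ x).1.1, (φ x).2.1) = ψ x from rfl, hψ.extend_apply] at h3
  have hXA : ∀ b, X b ∈ 𝒜 := fun b => by
    refine (Algebra.adjoin_le (S := 𝒜.toSubalgebra) ?_) (hX b).1
    intro a ha
    rcases Set.mem_insert_iff.1 ha with rfl | ⟨x, rfl⟩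
    exacts [hEmem o, hvA x]
  set Gd : (Fin K × Fin r) × (Fin K × Fin r) → (H →L[ℂ] H) := fun b =>
    (1 / (2 * Complex.I * (s : ℂ))) •
      ((X (.inl b) - star (X (.inl b))) + Complex.I • (X (.inr b) - star (X (.inr b))))
    with hGddef
  have hGdA : ∀ b, Gd b ∈ 𝒜 := fun b =>
    SMulMemClass.smul_mem _ (add_mem (sub_mem (hXA _) (star_mem (hXA _)))
      (SMulMemClass.smul_mem _ (sub_mem (hXA _) (star_mem (hXA _)))))
  have hGdM : ∀ b, Gd b ∈ M := fun b =>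
    smul_memM _ (add_mem (sub_mem (hX _).2.1 (star_mem (hX _).2.1))
      (smul_memM _ (sub_mem (hX _).2.1 (star_mem (hX _).2.1))))
  refine ⟨∑ b : (Fin K × Fin r) × (Fin K × Fin r),
    star (e (.inl b.1)) * Gd b * e (.inr b.2),
    sum_mem fun b _ => mul_mem (mul_mem (star_mem (hdec1 _)) (hGdA b)) (hdec1 _), ?_⟩
  have hdiff := T.n2_sq_recover hEP hEQ hz hzl hzr (e := fun x => e (.inl x))
    (f := fun x => e (.inr x)) (fun i => ⟨(he _).1, (he _).2.1⟩) (fun i => ⟨(he _).1, (he _).2.1⟩)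
    Gd hGdM
  refine (sq_le_sq₀ (n2_nonneg _) hε.le).1 (hdiff.trans ?_)
  change ∑ b, n2 ξ (Gd b - G b.1 b.2) ^ 2 ≤ ε ^ 2
  have hflat' : ∑ b : (Fin K × Fin r) × (Fin K × Fin r),
      n2 ξ (star (G b.1 b.2) * G b.1 b.2) ^ 2 ≤ 4 / (r:ℝ) := by
    refine (Finset.sum_le_sum fun b _ => pow_le_pow_left₀ (n2_nonneg _)
      (T.n2_quad_le ((hP' b.1.1).proj b.1.2) ((hQ' b.2.1).proj b.2.2) hz (he _).1
        (he (.inl b.1)).2.1 (he _).1 (he (.inr b.2)).2.1) 2).trans (le_of_eq_of_le ?_ hflat)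
    simp only [Fintype.sum_prod_type]
  have hper : ∀ b, n2 ξ (Gd b - G b.1 b.2) ^ 2 ≤
      2 * (4 * s ^ 2 * n2 ξ (star (G b.1 b.2) * G b.1 b.2) ^ 2 + ε ^ 2 / (16 * N)) +
      2 * (2 / s ^ 2 * (n2 ξ (X (.inl b) - U₁ b) ^ 2 + n2 ξ (X (.inr b) - U₂ b) ^ 2)) := by
    intro b
    have h1 := hUG b
    have h2 := T.n2_sq_decoded (hU₁ b).mem (hU₂ b).mem (hX (.inl b)).2.1 (hX (.inr b)).2.1 hs
    rw [n2_sub_comm T.summable (Gd b)]
    have h4 := pow_le_pow_left₀ (n2_nonneg _)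
      (n2_sub_le T.summable (G b.1 b.2) ((1 / (2 * Complex.I * (s : ℂ))) •
        ((U₁ b - star (U₁ b)) + Complex.I • (U₂ b - star (U₂ b)))) (Gd b)) 2
    exact h4.trans ((add_sq_le).trans (by linarith))
  refine (Finset.sum_le_sum fun b _ => hper b).trans ?_
  simp only [Finset.sum_add_distrib, ← Finset.mul_sum, Finset.sum_const, Finset.card_univ,
    nsmul_eq_mul, ← hN]
  have hsplit : ∑ b, n2 ξ (X (.inl b) - U₁ b) ^ 2 + ∑ b, n2 ξ (X (.inr b) - U₂ b) ^ 2 ≤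
      κ ^ 2 * ε ^ 2 / 16 * (Pr:ℝ) ^ 2 * (1 / n) := by
    rw [← htr o]
    refine le_of_eq_of_le ?_ hXerr
    rw [Fintype.sum_sum_type]
    rfl
  have hPn : (Pr:ℝ) ≤ n := by
    have h1 : (Pr:ℝ) ≤ ((2 * (4 * K * q * t) : ℕ) : ℝ) := by exact_mod_cast hPhi
    refine h1.trans ?_
    rw [hnr]
    push_cast
    have : (8:ℝ) * q ≤ 16 * q ^ 2 := by nlinarith
    calc (2:ℝ) * (4 * K * q * t) = K * t * (8 * q) := by ring
      _ ≤ K * t * (16 * q ^ 2) := by gcongr
      _ = _ := by ring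
  exact step_budget hKr hrr hN0 hn hκdef hκ hs2 (Nat.cast_nonneg _) hPn hflat' hsplit

end Vale.Agent.P085
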