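import Vale.Agent.P085.Interfaces2

/-!
# Interfaces inside the step (E)
-/

namespace Vale.Agent.P085

open scoped InnerProductSpace

universe u

variable {H : Type u} [NormedAddCommGroup H] [InnerProductSpace ℂ H] [CompleteSpace H]

/-- a unitary of the corner of `o` -/
structure CornerU (M : VonNeumannAlgebra H) (o u : H →L[ℂ] H) : Prop where
  mem : u ∈ M
  left : o * u = u
  right : u * o = u
  star_mul : star u * u = o
  mul_star : u * star u = o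

variable (M : VonNeumannAlgebra H) (ξ : ℕ → H)

/-- (E1) the encoding inside a corner -/
def CornerEncodeOut : Prop :=
  ∀ (C : ℕ) (ε : ℝ), 0 < ε → ∃ P0 : ℕ, ∀ P : ℕ, P.Prime → P0 ≤ P →
    ∀ o, IsProj M o → 0 < trP ξ o → ∀ (T : Type) [Fintype T], Fintype.card T ≤ C * P ^ 2 →
    ∀ U : T → (H →L[ℂ] H), (∀ t, CornerU M o (U t)) →
      ∃ v : Fin P × Fin P → (H →L[ℂ] H), (∀ e, CornerU M o (v e)) ∧
        ∃ X : T → (H →L[ℂ] H),
          (∀ t, X t ∈ Algebra.adjoin ℂ (insert o (Set.range v)) ∧ X t ∈ M ∧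
            o * X t = X t ∧ X t * o = X t) ∧
          ∑ t, n2 ξ (X t - U t) ^ 2 ≤ ε * (P : ℝ) ^ 2 * trP ξ o

/-- (E2) an element of a corner through the imaginary parts of two unitaries, at scale `s` -/
def ClipOut : Prop :=
  ∀ o, IsProj M o → ∀ G ∈ M, o * G = G → G * o = G → ∀ s : ℝ, 0 < s → ∀ θ : ℝ, 0 < θ →
    ∃ U₁ U₂, CornerU M o U₁ ∧ CornerU M o U₂ ∧
      n2 ξ (G - (1 / (2 * Complex.I * (s : ℂ))) •
        ((U₁ - star U₁) + Complex.I • (U₂ - star U₂))) ^ 2 ≤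
          4 * s ^ 2 * n2 ξ (star G * G) ^ 2 + θ

/-- (E3) write matrix units to one hub cell and free blocks into `y` on the rows of `S` -/
def DecodeOut : Prop :=
  ∀ (ι : Type) [Fintype ι] (E : ι → (H →L[ℂ] H)), IsPartition M 1 E →
  ∀ (S : Finset ι) (o : ι), o ∈ S → ∀ e : ι → (H →L[ℂ] H),
    (∀ i, e i ∈ M ∧ star (e i) * e i = E i ∧ e i * star (e i) = E o) → e o = E o →
  ∀ v : ι → ι → (H →L[ℂ] H), (∀ a i, v a i ∈ M ∧ E o * v a i * E o = v a i) →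
  ∀ y ∈ M, IsSelfAdjoint y → ∀ δ : ℝ, 0 < δ →
    ∃ y' ∈ M, IsSelfAdjoint y' ∧ ‖y'‖ ≤ ‖y‖ + δ ∧
      n2 ξ (y' - y) ≤ δ + 2 * ‖y‖ * Real.sqrt (∑ i ∈ S, trP ξ (E i)) ∧
      (∀ i, e i ∈ StarAlgebra.adjoin ℂ (Set.range E ∪ {y'})) ∧
      ∀ a ∈ S, a ≠ o → ∀ i, i ∉ S → v a i ∈ StarAlgebra.adjoin ℂ (Set.range E ∪ {y'})

end Vale.Agent.P085
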